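import Claimed.Agent.R282.Rep.Defs

/-!
# Row 282, Rep, BP-REP-EXIST, file 2: dominant weights are sums of fundamental-type weights (LEAVES L-REX-D1 `rex_pos_iff`, L-REX-D2 `rex_decomp`)

Sub-architect: helper178.  Statements FROZEN; helper lemmas: prefix `rexd_`.  No paper; pure arithmetic of integer vectors.

ROUTE for `rex_pos_iff`: `dot β.vec (rhoV n) = sgnB si * (n-1-i) + sgnB sj * (n-1-j)` (`Finset.sum_add_distrib`, `Finset.sum_ite_eq`); `i ≠ j`, `i, j ≤ n - 1`; four sign cases, cast to `ℝ`, `linarith`.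
ROUTE for `rex_decomp`.  `n = 0`: `halfV L = 0` (`Subsingleton`).  Otherwise strong induction on `(∑ i, |L i|).toNat` (or on `(L 0).toNat`):
* if there is `k` with `k + 1 < n`... precisely `i : Fin n`, `i + 1 < n`, with `|L (i+1)| < L i`: then `|L (i+1)| + 2 ≤ L i` (parity), `L' := L - 2 * 1_(≤ i)` is again dominant (`rexd_sub`),
  `halfV L = halfV L' + rexOm n (i+1)`;
* otherwise `L i = |L (i+1)|` for all `i`, so `L = a • (1,..,1,±1)` with `a = |L (n-1)|`, `halfV L = a.toNat • rexSp n s` (`s = true` iff `L (n-1) < 0`), `AddSubmonoid.nsmul_mem`.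
Alternative: the closed formula `halfV L = ∑_(k=1)^(n-1) m_k • rexOm n k + |a| • rexSp n s`, `m_k = (L_(k-1) - |L_k|)/2`, telescoping.
-/

set_option autoImplicit false

namespace Claimed.Agent.R282

open Claims.C0456

variable {n : ℕ}

/-- `e_0 + ... + e_(k-1)` -/
def rexOm (n k : ℕ) : Vec n := fun i => if (i : ℕ) < k then 1 else 0

/-- `(1/2, ..., 1/2, ± 1/2)`; `s = true` : the last entry is `-1/2` -/
noncomputable def rexSp (n : ℕ) (s : Bool) : Vec n :=
  fun i => if s = true ∧ (i : ℕ) + 1 = n then -1 / 2 else 1 / 2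

theorem rex_pos_iff (β : RootD n) :
    β.Pos ↔ (β.i < β.j ∧ β.si = false) ∨ (β.j < β.i ∧ β.sj = false) := by
  have key : dot β.vec (rhoV n) = sgnB β.si * ((n:ℝ) - 1 - ((β.i : ℕ) : ℝ)) + sgnB β.sj * ((n:ℝ) - 1 - ((β.j:ℕ) : ℝ)) := by
    simp [dot, RootD.vec, rhoV, add_mul, Finset.sum_add_distrib, ite_mul]
  unfold RootD.Pos
  rw [key]
  have hi : ((β.i : ℕ) : ℝ) + 1 ≤ n := by exact_mod_cast β.i.isLt
  have hj : ((β.j : ℕ) : ℝ) + 1 ≤ n := by exact_mod_cast β.j.isLt
  have hne : (β.i : ℕ) ≠ β.j := fun h => β.ne (Fin.ext h)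
  rcases lt_or_gt_of_ne hne with h | h
  · have h' : ((β.i:ℕ):ℝ) + 1 ≤ ((β.j:ℕ) : ℝ) := by exact_mod_cast h
    have h1 : β.i < β.j := h
    have h2 : ¬ β.j < β.i := not_lt.mpr h1.le
    simp only [h1, h2, true_and, false_and, or_false]
    cases β.si <;> cases β.sj <;> simp [sgnB] <;> first | linarith | exact h1 | exact h1.le
  · have h' : ((β.j:ℕ):ℝ) + 1 ≤ ((β.i:ℕ) : ℝ) := by exact_mod_cast h
    have h1 : β.j < β.i := h
    have h2 : ¬ β.i < β.j := not_lt.mpr h1.le
    simp only [h1, h2, true_and, false_and, false_or]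
    cases β.si <;> cases β.sj <;> simp [sgnB] <;> first | linarith | exact h1 | exact h1.le

theorem rex_decomp (W : AddSubmonoid (Vec n)) (h1 : ∀ k, k ≤ n → rexOm n k ∈ W)
    (h2 : ∀ s, rexSp n s ∈ W) (L : Fin n → ℤ) (hL : IsDominantWeight2 L) : halfV L ∈ W := by
  rcases Nat.eq_zero_or_pos n with h0 | hn
  · subst h0
    have : halfV L = 0 := Subsingleton.elim _ _
    rw [this]; exact W.zero_mem
  obtain ⟨ℓ, hℓ⟩ : ∃ ℓ : ℕ → ℤ, ∀ i : Fin n, ℓ i = L i :=
    ⟨fun j => if h : j < n then L ⟨j, h⟩ else 0, fun i => by simp⟩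
  obtain ⟨T, hT⟩ : ∃ T : ℕ → Fin n → ℤ, ∀ j i, T j i = if (i:ℕ) < j then |ℓ j| else L i := ⟨_, fun _ _ => rfl⟩
  have key : ∀ d j, j + d + 1 = n → halfV (T j) ∈ W := by
    intro d
    induction d with
    | zero =>
      intro j hj
      have : halfV (T j) = (|ℓ j|).toNat • rexSp n (decide (ℓ j < 0)) := by
        ext i
        have e1 : (((|ℓ j|).toNat : ℕ) : ℝ) = |(ℓ j : ℝ)| := by
          have : (((|ℓ j|).toNat : ℕ) : ℤ) = |ℓ j| := Int.toNat_of_nonneg (abs_nonneg _)
          rw [← Int.cast_natCast, this, Int.cast_abs]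
        simp only [halfV, hT, Pi.smul_apply, rexSp, decide_eq_true_eq]
        simp only [nsmul_eq_mul, e1]
        by_cases hi : (i : ℕ) < j
        · have : ¬ ((i:ℕ) + 1 = n) := by omega
          simp only [hi, this, if_true, and_false, if_false, Int.cast_abs]
          ring
        · have hij : (i : ℕ) = j := by have := i.isLt; omega
          have e2 : L i = ℓ j := by rw [← hℓ i, hij]
          have : (i:ℕ) + 1 = n := by omega
          simp only [hi, if_false, this, and_true, e2]
          by_cases hneg : ℓ j < 0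
          · have : (ℓ j : ℝ) < 0 := by exact_mod_cast hneg
            rw [if_pos hneg, abs_of_neg this]; ring
          · have : (0 : ℝ) ≤ (ℓ j : ℝ) := by exact_mod_cast not_lt.mp hneg
            rw [if_neg hneg, abs_of_nonneg this]; ring
      rw [this]; exact W.nsmul_mem (h2 _) _
    | succ d ih =>
      intro j hj
      have hj1 : j + 1 < n := by omega
      have hj0 : j < n := by omega
      have hdom : |ℓ (j+1)| ≤ ℓ j := by
        have := hL.2 ⟨j, hj0⟩ ⟨j+1, hj1⟩ (by simp [Fin.lt_def])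
        rw [← hℓ, ← hℓ] at this
        exact this
      have hev : Even (ℓ j - ℓ (j+1)) := by
        have := hL.1 ⟨j, hj0⟩ ⟨j+1, hj1⟩
        rw [← hℓ, ← hℓ] at this
        exact this
      obtain ⟨m, hm⟩ : ∃ m : ℕ, ℓ j - |ℓ (j+1)| = 2 * m := by
        have hev' : Even (ℓ j - |ℓ (j+1)|) := by
          rcases abs_choice (ℓ (j+1)) with h | h <;> rw [h]
          · exact hev
          · have : ℓ j - -ℓ (j+1) = (ℓ j - ℓ (j+1)) + 2 * ℓ (j+1) := by ring
            rw [this]; exact hev.add (even_two_mul _)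
        obtain ⟨r, hr⟩ := hev'
        refine ⟨r.toNat, ?_⟩
        have : 0 ≤ r := by omega
        rw [Int.toNat_of_nonneg this]; omega
      have hmR : (ℓ j : ℝ) - |(ℓ (j+1) : ℝ)| = 2 * m := by exact_mod_cast hm
      have hnn : (0:ℝ) ≤ (ℓ j : ℝ) := by
        have : 0 ≤ ℓ j := le_trans (abs_nonneg _) hdom
        exact_mod_cast this
      have : halfV (T j) = halfV (T (j+1)) + m • rexOm n (j+1) := by
        ext i
        simp only [halfV, hT, Pi.add_apply, Pi.smul_apply, rexOm]
        simp only [nsmul_eq_mul]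
        rcases lt_trichotomy (i:ℕ) j with hi | hi | hi
        · have h3 : (i:ℕ) < j + 1 := by omega
          simp only [hi, h3, if_true]
          push_cast
          rw [abs_of_nonneg hnn]; linarith
        · have h3 : (i:ℕ) < j + 1 := by omega
          have h4 : ¬ (i:ℕ) < j := by omega
          have e2 : L i = ℓ j := by rw [← hℓ i, hi]
          simp only [h4, h3, if_true, if_false, e2]
          push_cast
          linarith
        · have h3 : ¬ (i:ℕ) < j + 1 := by omega
          have h4 : ¬ (i:ℕ) < j := by omega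
          simp [h3, h4]
      rw [this]; exact W.add_mem (ih (j+1) (by omega)) (W.nsmul_mem (h1 _ (by omega)) _)
  have : T 0 = L := by ext i; simp [hT]
  rw [← this]; exact key (n-1) 0 (by omega)

end Claimed.Agent.R282
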