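import Claimed.Agent.R282.Rep.R.Exist.Car
import Claimed.Agent.R282.Rep.R.Exist.Dec

/-!
# Row 282, Rep, BP-REP-EXIST, file 4: the spin representation and the weights `(1/2, .., 1/2, ± 1/2)`

Sub-architect: helper178.  Statements FROZEN; helper lemmas: prefix `rexs_`.  No paper.
`C : Car (Fin n) ι`.  `γ_(i,0) = c_i + c_i^*`, `γ_(i,1) = i (c_i - c_i^*)`, `ρ X = (1/4) ∑ X p q γ_p γ_q`.

LEAVES: L-REX-S1 (section `Cliff`), L-REX-S2 (section `Op`), L-REX-S3 (section `Formulas`), L-REX-S4 (section `HW`).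

ROUTES.
* `gam_herm`, `gam_cliff`: cases `p.2, q.2 ∈ {0, 1}` (`Fin 2`: `fin_cases`/`Fin.forall_fin_two`) and `p.1 = q.1` or not; expand (`add_mul`, `mul_add`, `smul_mul_smul_comm`, `Complex.I_mul_I`), use `C.anti`, `C.car`, `C.anti_star`
  in the form `c_q c_p = - c_p c_q` etc. (`eq_neg_of_add_eq_zero_left`), finish with `abel`/`module`.
* `gamV_cliff`: bilinear expansion + `gam_cliff` + `Finset.sum_ite_eq`; `dotProduct`.
* `spinOp_gam`: `γ_p γ_q γ_r - γ_r γ_p γ_q = γ_p {γ_q, γ_r} - {γ_p, γ_r} γ_q = 2 δ_qr γ_p - 2 δ_pr γ_q`; sum; `X r q = - X q r`.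
* `spinOp_bracket` (only `X` skew): `[ρ X, γ_p γ_q] = [ρ X, γ_p] γ_q + γ_p [ρ X, γ_q] = ∑_r X r p γ_r γ_q + ∑_r X r q γ_p γ_r`; so `[ρ X, ρ Y] = ρ (X Y) + ρ (Y Xᵀ) = ρ (X Y - Y X)`.
* `spinOp_conjTranspose`: `(γ_p γ_q)ᴴ = γ_q γ_p`, `Finset.sum_comm`.
* `gamV_uvec`: `Fintype.sum_prod_type`, `Fin.sum_univ_two`, `Finset.sum_ite_eq`; `s = false`: `γ_0 - i γ_1 = 2 c`; `s = true`: `γ_0 + i γ_1 = 2 c^*`.
* `spinOp_rootVec`: `spinOp_vecMulVec`, `gamV_uvec`: `(1/2)(1/4)(4 o_a o_c - 4 o_c o_a) = (1/2)(o_a o_c - o_c o_a) = o_a o_c` by `lad_anti` (`β.i ≠ β.j`).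
* `spinOp_Hc`: only the entries `((i,0),(i,1)) ↦ i x_i`, `((i,1),(i,0)) ↦ - i x_i`; `γ_(i,0) γ_(i,1) = i (2 c^* c - 1) = - γ_(i,1) γ_(i,0)`.
* `HW`: `isHW_iff`, `mem_wt`, `mem_prim`, `op_apply` (`R/Api`), `rex_pos_iff` (file `Dec`), `spinOp_Hc`, `spinOp_rootVec`.  `dot (rexSp n false) x = (1/2) ∑ x i`.
  plus: `ρ(e_β) vac = o_a o_c vac`; one of `o_a, o_c` is an annihilator `c_i`; move it to the right with `lad_anti`.
  minus: the annihilator has index `< n - 1`, so it anticommutes with `c_(n-1)^*` too.  `≠ 0`: `c c^* vac = vac`.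
-/

set_option autoImplicit false

namespace Claimed.Agent.R282

open Claims.C0456 Matrix

variable {n : ℕ} {ι : Type} [Fintype ι] [DecidableEq ι]

namespace Car

variable (C : Car (Fin n) ι)

/-- Clifford generators -/
noncomputable def gam (p : Ix n) : Matrix ι ι ℂ :=
  if p.2 = 0 then C.c p.1 + (C.c p.1)ᴴ else Complex.I • (C.c p.1 - (C.c p.1)ᴴ)

/-- `γ(x) = ∑ x_p γ_p` -/
noncomputable def gamV (x : Ix n → ℂ) : Matrix ι ι ℂ := ∑ p, x p • C.gam p

/-- `(1/4) ∑ X p q γ_p γ_q` -/
noncomputable def spinOp (X : Matrix (Ix n) (Ix n) ℂ) : Matrix ι ι ℂ :=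
  (1 / 4 : ℂ) • ∑ p, ∑ q, X p q • (C.gam p * C.gam q)

/-- ladder operators: `false ↦ c_i` (raises the weight by `e_i`), `true ↦ c_i^*` -/
def lad (i : Fin n) (s : Bool) : Matrix ι ι ℂ := if s then (C.c i)ᴴ else C.c i

section Cliff

theorem rexs_gam_zero (i : Fin n) : C.gam (i, 0) = C.c i + (C.c i)ᴴ := by
  simp [gam]

theorem rexs_gam_one (i : Fin n) : C.gam (i, 1) = Complex.I • (C.c i - (C.c i)ᴴ) := by
  simp [gam]

theorem gam_herm (p : Ix n) : (C.gam p)ᴴ = C.gam p := by
  obtain ⟨i, s⟩ := p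
  fin_cases s
  · show (C.gam (i, 0))ᴴ = C.gam (i, 0)
    rw [rexs_gam_zero, conjTranspose_add, conjTranspose_conjTranspose, add_comm]
  · show (C.gam (i, 1))ᴴ = C.gam (i, 1)
    rw [rexs_gam_one, conjTranspose_smul, conjTranspose_sub, conjTranspose_conjTranspose]
    simp only [Complex.star_def, Complex.conj_I]
    module

theorem gam_cliff (p q : Ix n) :
    C.gam p * C.gam q + C.gam q * C.gam p = if p = q then (2 : ℂ) • (1 : Matrix ι ι ℂ) else 0 := by
  obtain ⟨i, s⟩ := p
  obtain ⟨j, t⟩ := q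
  have h1 := C.anti i j
  have h2 := C.anti_star i j
  have h3 := C.car i j
  have h4 := C.car j i
  have hI : Complex.I * Complex.I = -1 := Complex.I_mul_I
  set δ : Matrix ι ι ℂ := if i = j then 1 else 0 with hδ
  have h4' : C.c j * (C.c i)ᴴ + (C.c i)ᴴ * C.c j = δ := by
    rw [h4, hδ]
    by_cases h : i = j
    · rw [if_pos h, if_pos h.symm]
    · rw [if_neg h, if_neg (Ne.symm h)]
  fin_cases s <;> fin_cases t
  · show C.gam (i, 0) * C.gam (j, 0) + C.gam (j, 0) * C.gam (i, 0) = if ((i, 0) : Ix n) = (j, 0) then _ else _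
    have e : (if ((i, 0) : Ix n) = (j, 0) then (2 : ℂ) • (1 : Matrix ι ι ℂ) else 0) = (2 : ℂ) • δ := by
      by_cases h : i = j
      · simp [hδ, h]
      · simp [hδ, h]
    rw [e, rexs_gam_zero, rexs_gam_zero]
    simp only [mul_add, add_mul]
    linear_combination (norm := module) h1 + h2 + h3 + h4'
  · show C.gam (i, 0) * C.gam (j, 1) + C.gam (j, 1) * C.gam (i, 0) = if ((i, 0) : Ix n) = (j, 1) then _ else _
    rw [if_neg (by simp), rexs_gam_zero, rexs_gam_one]
    simp only [mul_add, add_mul, mul_sub, sub_mul, smul_mul_assoc, mul_smul_comm]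
    linear_combination (norm := module) Complex.I • h1 - Complex.I • h3 + Complex.I • h4' - Complex.I • h2
  · show C.gam (i, 1) * C.gam (j, 0) + C.gam (j, 0) * C.gam (i, 1) = if ((i, 1) : Ix n) = (j, 0) then _ else _
    rw [if_neg (by simp), rexs_gam_zero, rexs_gam_one]
    simp only [mul_add, add_mul, mul_sub, sub_mul, smul_mul_assoc, mul_smul_comm]
    linear_combination (norm := module) Complex.I • h1 + Complex.I • h3 - Complex.I • h4' - Complex.I • h2
  · show C.gam (i, 1) * C.gam (j, 1) + C.gam (j, 1) * C.gam (i, 1) = if ((i, 1) : Ix n) = (j, 1) then _ else _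
    have e : (if ((i, 1) : Ix n) = (j, 1) then (2 : ℂ) • (1 : Matrix ι ι ℂ) else 0) = (2 : ℂ) • δ := by
      by_cases h : i = j
      · simp [hδ, h]
      · simp [hδ, h]
    rw [e, rexs_gam_one, rexs_gam_one, smul_mul_smul_comm, smul_mul_smul_comm, hI]
    simp only [mul_sub, sub_mul]
    linear_combination (norm := module) - h1 + h3 + h4' - h2

theorem gamV_cliff (x y : Ix n → ℂ) :
    C.gamV x * C.gamV y + C.gamV y * C.gamV x = (2 * (x ⬝ᵥ y)) • (1 : Matrix ι ι ℂ) := by
  unfold gamV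
  rw [Finset.sum_mul_sum, Finset.sum_mul_sum, Finset.sum_comm (f := fun q p => y q • C.gam q * x p • C.gam p),
    ← Finset.sum_add_distrib]
  have h : ∀ p, ∑ q, x p • C.gam p * y q • C.gam q + ∑ q, y q • C.gam q * x p • C.gam p =
      (2 * (x p * y p)) • (1 : Matrix ι ι ℂ) := by
    intro p
    rw [← Finset.sum_add_distrib]
    have h2 : ∀ q, x p • C.gam p * y q • C.gam q + y q • C.gam q * x p • C.gam p =
        if p = q then (2 * (x p * y q)) • (1 : Matrix ι ι ℂ) else 0 := by
      intro q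
      rw [smul_mul_smul_comm, smul_mul_smul_comm, mul_comm (y q) (x p), ← smul_add, gam_cliff]
      by_cases hpq : p = q
      · rw [if_pos hpq, if_pos hpq, smul_smul]
        congr 1
        ring
      · rw [if_neg hpq, if_neg hpq, smul_zero]
    simp_rw [h2]
    rw [Finset.sum_ite_eq]
    simp
  simp_rw [h]
  rw [← Finset.sum_smul, dotProduct, Finset.mul_sum]

theorem lad_anti (i j : Fin n) (h : i ≠ j) (s t : Bool) :
    C.lad i s * C.lad j t = - (C.lad j t * C.lad i s) := by
  apply eq_neg_of_add_eq_zero_left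
  cases s <;> cases t
  · simpa [lad] using C.anti i j
  · simpa [lad, h] using C.car i j
  · have := C.car j i
    rw [if_neg (Ne.symm h)] at this
    simp only [lad]
    rw [add_comm]
    simpa using this
  · simpa [lad] using C.anti_star i j

end Cliff

section Op

theorem spinOp_add (X Y : Matrix (Ix n) (Ix n) ℂ) : C.spinOp (X + Y) = C.spinOp X + C.spinOp Y := by
  unfold spinOp
  simp only [Matrix.add_apply, add_smul, Finset.sum_add_distrib, smul_add]

theorem spinOp_smul (a : ℂ) (X : Matrix (Ix n) (Ix n) ℂ) : C.spinOp (a • X) = a • C.spinOp X := by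
  unfold spinOp
  simp only [Matrix.smul_apply, smul_eq_mul, mul_smul, ← Finset.smul_sum]
  rw [smul_comm]

theorem spinOp_sub (X Y : Matrix (Ix n) (Ix n) ℂ) : C.spinOp (X - Y) = C.spinOp X - C.spinOp Y := by
  unfold spinOp
  simp only [Matrix.sub_apply, sub_smul, Finset.sum_sub_distrib, smul_sub]

theorem spinOp_conjTranspose (X : Matrix (Ix n) (Ix n) ℂ) : (C.spinOp X)ᴴ = C.spinOp Xᴴ := by
  unfold spinOp
  rw [conjTranspose_smul, conjTranspose_sum]
  simp only [conjTranspose_sum, conjTranspose_smul, conjTranspose_mul, gam_herm,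
    conjTranspose_apply]
  rw [Finset.sum_comm]
  congr 1
  simp

theorem rexs_triple (p q r : Ix n) :
    C.gam p * C.gam q * C.gam r - C.gam r * (C.gam p * C.gam q) =
      (if q = r then (2 : ℂ) • C.gam p else 0) - (if p = r then (2 : ℂ) • C.gam q else 0) := by
  have h1 := C.gam_cliff q r
  have h2 := C.gam_cliff p r
  have e : C.gam p * C.gam q * C.gam r - C.gam r * (C.gam p * C.gam q) =
      C.gam p * (C.gam q * C.gam r + C.gam r * C.gam q) -
        (C.gam p * C.gam r + C.gam r * C.gam p) * C.gam q := by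
    noncomm_ring
  rw [e, h1, h2]
  by_cases hq : q = r <;> by_cases hp : p = r <;> simp [hq, hp]

theorem spinOp_gam (X : Matrix (Ix n) (Ix n) ℂ) (hX : Xᵀ = -X) (r : Ix n) :
    C.spinOp X * C.gam r - C.gam r * C.spinOp X = ∑ p, X p r • C.gam p := by
  have hX' : ∀ p q, X q p = - X p q := by
    intro p q
    have := congrFun (congrFun hX p) q
    simpa using this
  unfold spinOp
  rw [smul_mul_assoc, mul_smul_comm, ← smul_sub, Finset.sum_mul, Finset.mul_sum,
    ← Finset.sum_sub_distrib]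
  have h : ∀ p, (∑ q, X p q • (C.gam p * C.gam q)) * C.gam r -
      C.gam r * ∑ q, X p q • (C.gam p * C.gam q) =
      (2 * X p r) • C.gam p - (if p = r then ∑ q, (2 * X p q) • C.gam q else 0) := by
    intro p
    rw [Finset.sum_mul, Finset.mul_sum, ← Finset.sum_sub_distrib]
    have h2 : ∀ q, X p q • (C.gam p * C.gam q) * C.gam r - C.gam r * X p q • (C.gam p * C.gam q) =
        (if q = r then (2 * X p q) • C.gam p else 0) -
          (if p = r then (2 * X p q) • C.gam q else 0) := by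
      intro q
      rw [smul_mul_assoc, mul_smul_comm, ← smul_sub, rexs_triple, smul_sub]
      by_cases hq : q = r <;> by_cases hp : p = r <;> simp [hq, hp, smul_smul, mul_comm]
    simp_rw [h2]
    rw [Finset.sum_sub_distrib, Finset.sum_ite_eq']
    by_cases hp : p = r
    · simp [hp]
    · simp [hp]
  simp_rw [h]
  rw [Finset.sum_sub_distrib, Finset.sum_ite_eq']
  simp only [Finset.mem_univ, if_true]
  have h3 : ∑ q, (2 * X r q) • C.gam q = - ∑ q, (2 * X q r) • C.gam q := by
    rw [← Finset.sum_neg_distrib]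
    refine Finset.sum_congr rfl fun q _ => ?_
    rw [hX' q r, ← neg_smul]
    congr 1
    ring
  rw [h3, sub_neg_eq_add, ← two_smul ℂ, smul_smul, Finset.smul_sum]
  refine Finset.sum_congr rfl fun p _ => ?_
  rw [smul_smul]
  congr 1
  ring

omit [DecidableEq ι] in
theorem rexs_sum3 {α : Type} [Fintype α] (F : α → α → α → Matrix ι ι ℂ) :
    ∑ p, ∑ q, ∑ r, F r q p = ∑ p, ∑ q, ∑ r, F p q r :=
  calc ∑ p, ∑ q, ∑ r, F r q p = ∑ p, ∑ r, ∑ q, F r q p :=
        Finset.sum_congr rfl fun p _ => Finset.sum_comm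
    _ = ∑ r, ∑ p, ∑ q, F r q p := Finset.sum_comm
    _ = ∑ r, ∑ q, ∑ p, F r q p := Finset.sum_congr rfl fun r _ => Finset.sum_comm

theorem spinOp_bracket (X Y : Matrix (Ix n) (Ix n) ℂ) (hX : Xᵀ = -X) :
    C.spinOp (X * Y - Y * X) = C.spinOp X * C.spinOp Y - C.spinOp Y * C.spinOp X := by
  have hX' : ∀ p q, X q p = - X p q := by
    intro p q
    have := congrFun (congrFun hX p) q
    simpa using this
  have hL : ∀ p q, C.spinOp X * (C.gam p * C.gam q) - (C.gam p * C.gam q) * C.spinOp X =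
      (∑ r, X r p • C.gam r) * C.gam q + C.gam p * ∑ r, X r q • C.gam r := by
    intro p q
    rw [← C.spinOp_gam X hX p, ← C.spinOp_gam X hX q]
    noncomm_ring
  have e1 : C.spinOp X * C.spinOp Y - C.spinOp Y * C.spinOp X =
      (1 / 4 : ℂ) • ∑ p, ∑ q, Y p q •
        ((∑ r, X r p • C.gam r) * C.gam q + C.gam p * ∑ r, X r q • C.gam r) := by
    conv_lhs => rw [show C.spinOp Y = (1 / 4 : ℂ) • ∑ p, ∑ q, Y p q • (C.gam p * C.gam q) from rfl]
    rw [mul_smul_comm, smul_mul_assoc, ← smul_sub, Finset.mul_sum, Finset.sum_mul,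
      ← Finset.sum_sub_distrib]
    congr 1
    refine Finset.sum_congr rfl fun p _ => ?_
    rw [Finset.mul_sum, Finset.sum_mul, ← Finset.sum_sub_distrib]
    refine Finset.sum_congr rfl fun q _ => ?_
    rw [mul_smul_comm, smul_mul_assoc, ← smul_sub, hL]
  rw [e1, spinOp_sub]
  unfold spinOp
  rw [← smul_sub]
  congr 1
  simp only [smul_add, Finset.sum_add_distrib]
  rw [sub_eq_add_neg]
  congr 1
  · -- ∑ p q, (X*Y) p q γp γq = ∑ p q, Y p q • (∑ r, X r p γ r) γ q
    simp only [Matrix.mul_apply, Finset.sum_smul, Finset.sum_mul, Finset.smul_sum, smul_mul_assoc,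
      smul_smul]
    rw [← rexs_sum3 (fun p q r => (Y p q * X r p) • (C.gam r * C.gam q))]
    refine Finset.sum_congr rfl fun p _ => Finset.sum_congr rfl fun q _ =>
      Finset.sum_congr rfl fun r _ => ?_
    rw [mul_comm]
  · simp only [Matrix.mul_apply, Finset.sum_smul, Finset.mul_sum, Finset.smul_sum, mul_smul_comm,
      smul_smul, ← Finset.sum_neg_distrib]
    refine Finset.sum_congr rfl fun p _ => ?_
    rw [Finset.sum_comm]
    refine Finset.sum_congr rfl fun q _ => Finset.sum_congr rfl fun r _ => ?_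
    rw [hX' q r, ← neg_smul]
    congr 1
    ring

end Op

/-- the spin representation (sum of the two half spin representations) -/
noncomputable def spinRep : StarRep Ty.D n ι where
  ρ := { toFun := C.spinOp, map_add' := C.spinOp_add, map_smul' := C.spinOp_smul }
  bracket := fun X Y hX _ => C.spinOp_bracket X Y hX.1
  star := fun X _ => (C.spinOp_conjTranspose X).symm

section Formulas

theorem gamV_uvec (i : Fin n) (s : Bool) : C.gamV (uvec i s) = (2 : ℂ) • C.lad i s := by
  unfold gamV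
  rw [Fintype.sum_prod_type, Finset.sum_eq_single i]
  · rw [Fin.sum_univ_two, rexs_gam_zero, rexs_gam_one]
    have hI : Complex.I * Complex.I = -1 := Complex.I_mul_I
    cases s
    · simp only [uvec, lad, if_true, smul_smul]
      simp only [one_ne_zero, if_false, Bool.false_eq_true, neg_mul, hI]
      module
    · simp only [uvec, lad, if_true, smul_smul]
      simp only [one_ne_zero, if_false, hI]
      module
  · intro j _ hj
    rw [Fin.sum_univ_two]
    simp [uvec, hj]
  · intro h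
    exact absurd (Finset.mem_univ _) h

theorem spinOp_vecMulVec (a b : Ix n → ℂ) :
    C.spinOp (vecMulVec a b) = (1 / 4 : ℂ) • (C.gamV a * C.gamV b) := by
  unfold spinOp gamV
  rw [Finset.sum_mul_sum]
  congr 1
  refine Finset.sum_congr rfl fun p _ => Finset.sum_congr rfl fun q _ => ?_
  rw [smul_mul_smul_comm, vecMulVec_apply]

theorem spinOp_rootVec (β : RootD n) : C.spinOp (rootVec β) = C.lad β.i β.si * C.lad β.j β.sj := by
  unfold rootVec
  rw [spinOp_smul, spinOp_sub, spinOp_vecMulVec, spinOp_vecMulVec, gamV_uvec, gamV_uvec,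
    smul_mul_smul_comm, smul_mul_smul_comm, C.lad_anti β.j β.i (Ne.symm β.ne)]
  module

theorem spinOp_Hc (x : Vec n) :
    C.spinOp (Hc x) = ∑ i, (x i : ℂ) • ((1 / 2 : ℂ) • (1 : Matrix ι ι ℂ) - (C.c i)ᴴ * C.c i) := by
  unfold spinOp
  rw [Fintype.sum_prod_type, Finset.smul_sum]
  refine Finset.sum_congr rfl fun i _ => ?_
  rw [Fin.sum_univ_two]
  have h : ∀ s : Fin 2, ∑ q, Hc x (i, s) q • (C.gam (i, s) * C.gam q) =
      Hc x (i, s) (i, 0) • (C.gam (i, s) * C.gam (i, 0)) +
        Hc x (i, s) (i, 1) • (C.gam (i, s) * C.gam (i, 1)) := by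
    intro s
    rw [Fintype.sum_prod_type, Finset.sum_eq_single i]
    · rw [Fin.sum_univ_two]
    · intro j _ hj
      rw [Fin.sum_univ_two]
      simp [Hc, JmatC, Jmat, Ne.symm hj]
    · intro h
      exact absurd (Finset.mem_univ _) h
  rw [h 0, h 1]
  have e00 : Hc x (i, 0) (i, 0) = 0 := by simp [Hc, JmatC, Jmat]
  have e01 : Hc x (i, 0) (i, 1) = Complex.I * x i := by simp [Hc, JmatC, Jmat]
  have e10 : Hc x (i, 1) (i, 0) = -(Complex.I * x i) := by simp [Hc, JmatC, Jmat]
  have e11 : Hc x (i, 1) (i, 1) = 0 := by simp [Hc, JmatC, Jmat]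
  have hanti := C.anti i i
  have hstar := C.anti_star i i
  have hcar := C.car i i
  rw [if_pos rfl] at hcar
  have g01 : C.gam (i, 0) * C.gam (i, 1) =
      Complex.I • ((2 : ℂ) • ((C.c i)ᴴ * C.c i) - 1) := by
    rw [rexs_gam_zero, rexs_gam_one]
    simp only [mul_smul_comm, add_mul, mul_sub]
    linear_combination (norm := module)
      (Complex.I / 2) • hanti - (Complex.I / 2) • hstar - Complex.I • hcar
  have g10 : C.gam (i, 1) * C.gam (i, 0) =
      Complex.I • (1 - (2 : ℂ) • ((C.c i)ᴴ * C.c i)) := by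
    rw [rexs_gam_zero, rexs_gam_one]
    simp only [smul_mul_assoc, sub_mul, mul_add]
    linear_combination (norm := module)
      (Complex.I / 2) • hanti - (Complex.I / 2) • hstar + Complex.I • hcar
  rw [e00, e01, e10, e11, g01, g10, zero_smul, zero_smul, zero_add, add_zero, smul_smul, smul_smul]
  have hI : Complex.I * (x i : ℂ) * Complex.I = -(x i : ℂ) := by
    linear_combination (x i : ℂ) * Complex.I_mul_I
  rw [neg_mul, hI]
  module

end Formulas

end Car

section HW

variable (C : Car (Fin n) ι)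

theorem rexs_op (X : Matrix (Ix n) (Ix n) ℂ) (a : ι → ℂ) :
    C.spinRep.op X a = (C.spinOp X).mulVec a := rfl

theorem rexs_c_star_vac {i m : Fin n} (h : i ≠ m) :
    (C.c i).mulVec ((C.c m)ᴴ.mulVec C.vac) = 0 := by
  have h1 := C.car i m
  rw [if_neg h] at h1
  have h2 : C.c i * (C.c m)ᴴ = -((C.c m)ᴴ * C.c i) := eq_neg_of_add_eq_zero_left h1
  rw [mulVec_mulVec, h2, neg_mulVec, ← mulVec_mulVec, C.kill, mulVec_zero, neg_zero]

theorem rexs_c_star_vac_self (m : Fin n) :
    (C.c m).mulVec ((C.c m)ᴴ.mulVec C.vac) = C.vac := by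
  have h1 := C.car m m
  rw [if_pos rfl] at h1
  have h2 : C.c m * (C.c m)ᴴ = 1 - (C.c m)ᴴ * C.c m := eq_sub_of_add_eq h1
  rw [mulVec_mulVec, h2, sub_mulVec, one_mulVec, ← mulVec_mulVec, C.kill, mulVec_zero, sub_zero]

theorem rex_spin_isHW_plus : IsHW C.spinRep C.vac (rexSp n false) := by
  rw [isHW_iff]
  refine ⟨C.vac_ne, ?_, ?_⟩
  · rw [mem_wt]
    intro x
    rw [rexs_op, Car.spinOp_Hc, sum_mulVec]
    have h : ∀ i, ((x i : ℂ) • ((1 / 2 : ℂ) • (1 : Matrix ι ι ℂ) - (C.c i)ᴴ * C.c i)).mulVec C.vac =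
        ((1 / 2 * x i : ℝ) : ℂ) • C.vac := by
      intro i
      rw [smul_mulVec, sub_mulVec, smul_mulVec, one_mulVec, ← mulVec_mulVec, C.kill, mulVec_zero,
        sub_zero, smul_smul]
      congr 1
      push_cast
      ring
    simp_rw [h]
    rw [← Finset.sum_smul]
    congr 1
    unfold dot rexSp
    push_cast
    refine Finset.sum_congr rfl fun i _ => ?_
    simp
  · rw [mem_prim]
    intro β hβ
    rw [rexs_op, Car.spinOp_rootVec]
    rcases (rex_pos_iff β).mp hβ with ⟨_, hs⟩ | ⟨_, hs⟩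
    · rw [C.lad_anti β.i β.j β.ne, neg_mulVec, ← mulVec_mulVec, hs]
      simp [Car.lad, C.kill]
    · rw [← mulVec_mulVec, hs]
      simp [Car.lad, C.kill]

theorem rex_spin_isHW_minus (hn : 0 < n) :
    IsHW C.spinRep ((C.c ⟨n - 1, by omega⟩)ᴴ.mulVec C.vac) (rexSp n true) := by
  set m : Fin n := ⟨n - 1, by omega⟩ with hm
  rw [isHW_iff]
  refine ⟨?_, ?_, ?_⟩
  · intro h0
    have := rexs_c_star_vac_self C m
    rw [h0, mulVec_zero] at this
    exact C.vac_ne this.symm
  · rw [mem_wt]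
    intro x
    rw [rexs_op, Car.spinOp_Hc, sum_mulVec]
    have h : ∀ i, ((x i : ℂ) • ((1 / 2 : ℂ) • (1 : Matrix ι ι ℂ) - (C.c i)ᴴ * C.c i)).mulVec
        ((C.c m)ᴴ.mulVec C.vac) = ((rexSp n true i * x i : ℝ) : ℂ) • ((C.c m)ᴴ.mulVec C.vac) := by
      intro i
      rw [smul_mulVec, sub_mulVec, smul_mulVec, one_mulVec, ← mulVec_mulVec]
      by_cases him : i = m
      · subst him
        rw [rexs_c_star_vac_self]
        have e : rexSp n true m = -1 / 2 := by
          unfold rexSp
          rw [if_pos]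
          refine ⟨rfl, ?_⟩
          rw [hm]
          show n - 1 + 1 = n
          omega
        rw [e]
        push_cast
        module
      · rw [rexs_c_star_vac C him, mulVec_zero, sub_zero, smul_smul]
        have e : rexSp n true i = 1 / 2 := by
          unfold rexSp
          rw [if_neg]
          rintro ⟨_, h2⟩
          apply him
          apply Fin.ext
          rw [hm]
          show (i : ℕ) = n - 1
          omega
        rw [e]
        congr 1
        push_cast
        ring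
    simp_rw [h]
    rw [← Finset.sum_smul]
    congr 1
    unfold dot
    push_cast
    rfl
  · rw [mem_prim]
    intro β hβ
    rw [rexs_op, Car.spinOp_rootVec]
    rcases (rex_pos_iff β).mp hβ with ⟨hlt, hs⟩ | ⟨hlt, hs⟩
    · have him : β.i ≠ m := by
        intro h
        have h1 : (β.i : ℕ) < β.j := hlt
        have h2 : (β.i : ℕ) = n - 1 := by rw [h, hm]
        have h3 := β.j.2
        omega
      rw [C.lad_anti β.i β.j β.ne, neg_mulVec, ← mulVec_mulVec, hs]
      simp only [Car.lad, Bool.false_eq_true, if_false]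
      rw [rexs_c_star_vac C him, mulVec_zero, neg_zero]
    · have him : β.j ≠ m := by
        intro h
        have h1 : (β.j : ℕ) < β.i := hlt
        have h2 : (β.j : ℕ) = n - 1 := by rw [h, hm]
        have h3 := β.i.2
        omega
      rw [← mulVec_mulVec, hs]
      simp only [Car.lad, Bool.false_eq_true, if_false]
      rw [rexs_c_star_vac C him, mulVec_zero]

end HW

end Claimed.Agent.R282
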