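import Claimed.Agent.R282.Rep.R.Kron

/-!
# Row 282, Rep, BP-REP-EXIST, file 1: abstract CAR systems (Fock space without a basis of finite sets)

Sub-architect: helper178.  Prefix `rex_` / namespace `Car`.  Statements FROZEN; helper lemmas: prefix `rexc_`.  No paper.
A `Car Q ι` is a family of matrices `c q` (annihilation operators) with `c_p c_q + c_q c_p = 0`, `c_p c_q^* + c_q^* c_p = δ_pq` and a vacuum `vac ≠ 0`, `c_q vac = 0`.
EVERYTHING else is deduced from these relations (no signs `(-1)^#{..}`, no finite sets).  Existence: Jordan-Wigner, induction on `N` with Kronecker products.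

LEAVES: L-REX-C1 (section `Exists`), L-REX-C2 (section `Lin`), L-REX-C3 (section `Quad`), L-REX-C4 (section `Wedge`).

ROUTES.
* `Car.succ_exists`.  `σ := !![0, 1; 0, 0]`, `z := !![1, 0; 0, -1]` (`Matrix (Fin 2) (Fin 2) ℂ`), `⊗ = kroneckerMap (· * ·)` (notation `⊗ₖ`).  `c' 0 := σ ⊗ 1`, `c' (q+1) := z ⊗ c q` (`Fin.cases`), `vac' := tmul (Pi.single 0 1) vac`.
  `(A ⊗ B) (A' ⊗ B') = AA' ⊗ BB'` (`Matrix.mul_kronecker_mul`), `(A ⊗ B)ᴴ = Aᴴ ⊗ Bᴴ` (`conjTranspose_kronecker`), `1 ⊗ 1 = 1`, additivity `kroneckerMap_add_left/right`.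
  `2 × 2` facts by `ext i j; fin_cases i <;> fin_cases j <;> simp`:  `σσ = 0`, `σz + zσ = 0`, `zz = 1`, `zᴴ = z`, `σσᴴ + σᴴσ = 1`, `zσᴴ + σᴴz = 0`, `σ e₀ = 0`.   `(A ⊗ B) (tmul a b) = tmul (A a) (B b)`.
* `car_exists`.  Induction on `N` for `Q = Fin N` (base: `ι = Fin 1`, `vac = 1`, no operators), then `c ∘ e` for `e : Q ≃ Fin (card Q)` (`Fintype.equivFin`).
* section `Lin`: expand the sums (`Finset.sum_mul`, `Finset.mul_sum`, `Finset.sum_comm`, `smul_mul_smul_comm`), use `anti`, `car` termwise; adjoint of `anti` gives `c_p^* c_q^* + c_q^* c_p^* = 0`.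
  `cr_sq`: `cr_anti x x` and `2 • A = 0 → A = 0`.
* `quad_comm`: `[c_p^* c_q, c_r^*] = δ_qr c_p^*`, `[c_p^* c_q, c_s] = - δ_ps c_q` (from `car`, `anti`; `noncomm_ring`-style rewriting: `c_q c_r^* = δ - c_r^* c_q`), then the Leibniz rule.
* `dG_cr`, `dG_bracket`: expand, `quad_comm`, collapse the `δ`'s (`Finset.sum_ite_eq`), `Matrix.mul_apply`, `Matrix.mulVec`.
* section `Wedge`: `wedge_dG` = `dG_cr` applied to a vector (`Matrix.mulVec_mulVec`, `sub_eq_iff_eq_add`).  `wedge_mem`: induction on `l`; head: `cr_sq`; tail: `cr_anti`.  `wedge_an`: induction, `an_cr`, `an_vac`.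
  `wedge_cons_ne`: `an x' (cr x (wedge l)) = (x' ⬝ᵥ x) wedge l - cr x (an x' (wedge l)) = (x' ⬝ᵥ x) wedge l ≠ 0`.
-/

set_option autoImplicit false

namespace Claimed.Agent.R282

open Matrix

/-- canonical anticommutation relations with a vacuum; `c q` are the annihilation operators -/
structure Car (Q ι : Type) [DecidableEq Q] [Fintype ι] [DecidableEq ι] where
  c : Q → Matrix ι ι ℂ
  vac : ι → ℂ
  anti : ∀ p q, c p * c q + c q * c p = 0
  car : ∀ p q, c p * (c q)ᴴ + (c q)ᴴ * c p = if p = q then 1 else 0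
  kill : ∀ p, (c p).mulVec vac = 0
  vac_ne : vac ≠ 0

section Exists

open Kronecker in
theorem rexc_kron_tmul {ι₁ ι₂ : Type} [Fintype ι₁] [Fintype ι₂] (A : Matrix ι₁ ι₁ ℂ) (B : Matrix ι₂ ι₂ ℂ)
    (a : ι₁ → ℂ) (b : ι₂ → ℂ) : (A ⊗ₖ B).mulVec (tmul a b) = tmul (A.mulVec a) (B.mulVec b) := by
  ext ⟨i, j⟩
  simp only [mulVec, dotProduct, tmul, Fintype.sum_prod_type, kroneckerMap_apply, Finset.sum_mul_sum]
  refine Finset.sum_congr rfl fun k _ => Finset.sum_congr rfl fun l _ => ?_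
  ring

open Kronecker in
theorem Car.succ_exists {N : ℕ} {ι : Type} [Fintype ι] [DecidableEq ι] (C : Car (Fin N) ι) :
    Nonempty (Car (Fin (N + 1)) (Fin 2 × ι)) := by
  obtain ⟨σ, hσ⟩ : ∃ σ : Matrix (Fin 2) (Fin 2) ℂ, σ = !![0, 1; 0, 0] := ⟨_, rfl⟩
  obtain ⟨z, hz⟩ : ∃ z : Matrix (Fin 2) (Fin 2) ℂ, z = !![1, 0; 0, -1] := ⟨_, rfl⟩
  have f1 : σ * σ = 0 := by subst hσ; ext i j; fin_cases i <;> fin_cases j <;> simp
  have f2 : σ * z + z * σ = 0 := by
    subst hσ hz; ext i j; fin_cases i <;> fin_cases j <;> simp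
  have f3 : z * z = 1 := by subst hz; ext i j; fin_cases i <;> fin_cases j <;> simp
  have f4 : zᴴ = z := by subst hz; ext i j; fin_cases i <;> fin_cases j <;> simp
  have f0 : σᴴ = !![0, 0; 1, 0] := by
    subst hσ; ext i j; fin_cases i <;> fin_cases j <;> simp [conjTranspose_apply]
  have f5 : σ * σᴴ + σᴴ * σ = 1 := by
    rw [f0]; subst hσ; ext i j; fin_cases i <;> fin_cases j <;> simp
  have f6 : z * σᴴ + σᴴ * z = 0 := by
    rw [f0]; subst hz; ext i j; fin_cases i <;> fin_cases j <;> simp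
  have f7 : σ.mulVec (Pi.single 0 1) = 0 := by subst hσ; ext i; fin_cases i <;> simp
  refine ⟨{ c := Fin.cases (σ ⊗ₖ (1 : Matrix ι ι ℂ)) (fun q => z ⊗ₖ C.c q)
            vac := tmul (Pi.single 0 1) C.vac
            anti := ?_, car := ?_, kill := ?_, vac_ne := ?_ }⟩
  · intro p q
    refine Fin.cases ?_ (fun p => ?_) p <;> refine Fin.cases ?_ (fun q => ?_) q
    · simp only [Fin.cases_zero, ← mul_kronecker_mul, f1, zero_kronecker, add_zero]
    · simp only [Fin.cases_zero, Fin.cases_succ, ← mul_kronecker_mul, one_mul, mul_one,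
        ← add_kronecker, f2, zero_kronecker]
    · simp only [Fin.cases_zero, Fin.cases_succ, ← mul_kronecker_mul, one_mul, mul_one,
        ← add_kronecker, add_comm (z * σ), f2, zero_kronecker]
    · simp only [Fin.cases_succ, ← mul_kronecker_mul, ← kronecker_add, C.anti, kronecker_zero]
  · intro p q
    refine Fin.cases ?_ (fun p => ?_) p <;> refine Fin.cases ?_ (fun q => ?_) q
    · simp only [Fin.cases_zero, conjTranspose_kronecker, conjTranspose_one, ← mul_kronecker_mul,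
        one_mul, ← add_kronecker, f5, one_kronecker_one, if_true]
    · have : (0 : Fin (N + 1)) ≠ q.succ := (Fin.succ_ne_zero q).symm
      simp only [Fin.cases_zero, Fin.cases_succ, conjTranspose_kronecker, f4, ← mul_kronecker_mul,
        one_mul, mul_one, ← add_kronecker, f2, zero_kronecker, if_neg this]
    · have : p.succ ≠ (0 : Fin (N + 1)) := Fin.succ_ne_zero p
      simp only [Fin.cases_zero, Fin.cases_succ, conjTranspose_kronecker, conjTranspose_one,
        ← mul_kronecker_mul, one_mul, mul_one, ← add_kronecker, f6, zero_kronecker, if_neg this]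
    · simp only [Fin.cases_succ, conjTranspose_kronecker, f4, ← mul_kronecker_mul, f3,
        ← kronecker_add, C.car, Fin.succ_inj]
      split_ifs
      · exact one_kronecker_one
      · exact kronecker_zero _
  · intro p
    refine Fin.cases ?_ (fun p => ?_) p
    · simp only [Fin.cases_zero, rexc_kron_tmul, f7]
      ext ⟨i, j⟩; simp [tmul]
    · simp only [Fin.cases_succ, rexc_kron_tmul, C.kill]
      ext ⟨i, j⟩; simp [tmul]
  · intro h
    apply C.vac_ne
    ext j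
    have := congrFun h (0, j)
    simpa [tmul] using this

theorem rexc_car_fin (N : ℕ) :
    ∃ (ι : Type) (_ : Fintype ι) (_ : DecidableEq ι), Nonempty (Car (Fin N) ι) := by
  induction N with
  | zero =>
    refine ⟨Fin 1, inferInstance, inferInstance, ⟨{ c := fun q => q.elim0, vac := fun _ => 1, anti := fun p => p.elim0, car := fun p => p.elim0, kill := fun p => p.elim0, vac_ne := ?_ }⟩⟩
    intro h
    have := congrFun h 0
    simp at this
  | succ N ih =>
    obtain ⟨ι, f, d, ⟨C⟩⟩ := ih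
    exact ⟨Fin 2 × ι, inferInstance, inferInstance, C.succ_exists⟩

theorem car_exists (Q : Type) [Fintype Q] [DecidableEq Q] :
    ∃ (ι : Type) (_ : Fintype ι) (_ : DecidableEq ι), Nonempty (Car Q ι) := by
  obtain ⟨ι, f, d, ⟨C⟩⟩ := rexc_car_fin (Fintype.card Q)
  refine ⟨ι, f, d, ⟨{ c := fun q => C.c (Fintype.equivFin Q q), vac := C.vac, anti := fun p q => C.anti _ _, car := ?_, kill := fun p => C.kill _, vac_ne := C.vac_ne }⟩⟩
  intro p q
  rw [C.car]
  simp

end Exists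

theorem rexc_mul_sum {Q Q' ι : Type} [Fintype Q] [Fintype Q'] [Fintype ι] [DecidableEq ι] (x : Q → ℂ) (y : Q' → ℂ) (A : Q → Matrix ι ι ℂ) (B : Q' → Matrix ι ι ℂ) :
    (∑ p, x p • A p) * (∑ q, y q • B q) = ∑ p, ∑ q, (x p * y q) • (A p * B q) := by
  simp only [Finset.sum_mul, Finset.mul_sum, smul_mul_smul_comm]
  rw [Finset.sum_comm]

theorem rexc_mul_sum' {Q Q' ι : Type} [Fintype Q] [Fintype Q'] [Fintype ι] [DecidableEq ι] (x : Q → ℂ) (y : Q' → ℂ) (A : Q → Matrix ι ι ℂ) (B : Q' → Matrix ι ι ℂ) :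
    (∑ q, y q • B q) * (∑ p, x p • A p) = ∑ p, ∑ q, (x p * y q) • (B q * A p) := by
  rw [rexc_mul_sum, Finset.sum_comm]
  simp only [mul_comm]

namespace Car

variable {Q ι : Type} [Fintype Q] [DecidableEq Q] [Fintype ι] [DecidableEq ι] (C : Car Q ι)

section Lin

/-- creation operator `c⁺(x) = ∑ x_p c_p^*` -/
noncomputable def cr (x : Q → ℂ) : Matrix ι ι ℂ := ∑ p, x p • (C.c p)ᴴ

/-- annihilation operator `c(x) = ∑ x_p c_p` (bilinear convention) -/
noncomputable def an (x : Q → ℂ) : Matrix ι ι ℂ := ∑ p, x p • C.c p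

theorem cr_add (x y : Q → ℂ) : C.cr (x + y) = C.cr x + C.cr y := by
  simp [cr, add_smul, Finset.sum_add_distrib]

theorem cr_smul (a : ℂ) (x : Q → ℂ) : C.cr (a • x) = a • C.cr x := by
  simp [cr, Finset.smul_sum, smul_smul]

theorem cr_zero : C.cr 0 = 0 := by
  simp [cr]

theorem cr_single (p : Q) : C.cr (Pi.single p 1) = (C.c p)ᴴ := by
  simp [cr, Pi.single_apply, ite_smul]

theorem an_single (p : Q) : C.an (Pi.single p 1) = C.c p := by
  simp [an, Pi.single_apply, ite_smul]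

theorem anti_star (p q : Q) : (C.c p)ᴴ * (C.c q)ᴴ + (C.c q)ᴴ * (C.c p)ᴴ = 0 := by
  have := congrArg conjTranspose (C.anti q p)
  simpa [conjTranspose_add, conjTranspose_mul] using this

theorem cr_anti (x y : Q → ℂ) : C.cr x * C.cr y + C.cr y * C.cr x = 0 := by
  unfold cr
  rw [rexc_mul_sum, rexc_mul_sum', ← Finset.sum_add_distrib]
  refine Finset.sum_eq_zero fun p _ => ?_
  rw [← Finset.sum_add_distrib]
  refine Finset.sum_eq_zero fun q _ => ?_
  rw [← smul_add, C.anti_star, smul_zero]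

theorem cr_sq (x : Q → ℂ) : C.cr x * C.cr x = 0 := by
  have h := C.cr_anti x x
  rw [← two_smul ℂ] at h
  exact (smul_eq_zero.mp h).resolve_left two_ne_zero

theorem an_cr (x y : Q → ℂ) : C.an x * C.cr y + C.cr y * C.an x = (x ⬝ᵥ y) • (1 : Matrix ι ι ℂ) := by
  unfold cr an
  rw [rexc_mul_sum, rexc_mul_sum', ← Finset.sum_add_distrib, dotProduct, Finset.sum_smul]
  refine Finset.sum_congr rfl fun p _ => ?_
  rw [← Finset.sum_add_distrib]
  simp only [← smul_add, C.car, smul_ite, smul_zero, Finset.sum_ite_eq, Finset.mem_univ, if_true]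

theorem an_vac (x : Q → ℂ) : (C.an x).mulVec C.vac = 0 := by
  unfold an
  rw [Matrix.sum_mulVec]
  refine Finset.sum_eq_zero fun p _ => ?_
  rw [Matrix.smul_mulVec, C.kill, smul_zero]

end Lin

section Quad

/-- second quantisation `dΓ(X) = ∑ X p q c_p^* c_q` -/
noncomputable def dG (X : Matrix Q Q ℂ) : Matrix ι ι ℂ := ∑ p, ∑ q, X p q • ((C.c p)ᴴ * C.c q)

theorem dG_add (X Y : Matrix Q Q ℂ) : C.dG (X + Y) = C.dG X + C.dG Y := by
  simp [dG, add_smul, Finset.sum_add_distrib]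

theorem dG_smul (a : ℂ) (X : Matrix Q Q ℂ) : C.dG (a • X) = a • C.dG X := by
  simp [dG, Finset.smul_sum, smul_smul]

theorem dG_conjTranspose (X : Matrix Q Q ℂ) : (C.dG X)ᴴ = C.dG Xᴴ := by
  unfold dG
  rw [Finset.sum_comm]
  simp [conjTranspose_sum, conjTranspose_smul, conjTranspose_mul]

theorem quad_comm (p q r s : Q) :
    ((C.c p)ᴴ * C.c q) * ((C.c r)ᴴ * C.c s) - ((C.c r)ᴴ * C.c s) * ((C.c p)ᴴ * C.c q) =
      (if q = r then (C.c p)ᴴ * C.c s else 0) - (if p = s then (C.c r)ᴴ * C.c q else 0) := by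
  have h1 : C.c q * (C.c r)ᴴ = (if q = r then 1 else 0) - (C.c r)ᴴ * C.c q := eq_sub_of_add_eq (C.car q r)
  have h2 : C.c s * (C.c p)ᴴ = (if s = p then 1 else 0) - (C.c p)ᴴ * C.c s := eq_sub_of_add_eq (C.car s p)
  have h3 : (C.c p)ᴴ * (C.c r)ᴴ = - ((C.c r)ᴴ * (C.c p)ᴴ) := eq_neg_of_add_eq_zero_left (C.anti_star p r)
  have h4 : C.c q * C.c s = - (C.c s * C.c q) := eq_neg_of_add_eq_zero_left (C.anti q s)
  calc ((C.c p)ᴴ * C.c q) * ((C.c r)ᴴ * C.c s) - ((C.c r)ᴴ * C.c s) * ((C.c p)ᴴ * C.c q)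
      = (C.c p)ᴴ * (C.c q * (C.c r)ᴴ) * C.c s - (C.c r)ᴴ * (C.c s * (C.c p)ᴴ) * C.c q := by
        noncomm_ring
    _ = (C.c p)ᴴ * (if q = r then 1 else 0) * C.c s - (C.c r)ᴴ * (if s = p then 1 else 0) * C.c q
        - ((C.c p)ᴴ * (C.c r)ᴴ) * (C.c q * C.c s) + (C.c r)ᴴ * (C.c p)ᴴ * C.c s * C.c q := by
        rw [h1, h2]; noncomm_ring
    _ = (C.c p)ᴴ * (if q = r then 1 else 0) * C.c s - (C.c r)ᴴ * (if s = p then 1 else 0) * C.c q := by
        rw [h3, h4]; noncomm_ring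
    _ = _ := by
        congr 1
        · split_ifs <;> simp
        · by_cases h : s = p
          · simp [h]
          · simp [h, Ne.symm h]

theorem rexc_quad_cr (p q r : Q) :
    ((C.c p)ᴴ * C.c q) * (C.c r)ᴴ - (C.c r)ᴴ * ((C.c p)ᴴ * C.c q) = if q = r then (C.c p)ᴴ else 0 := by
  have h1 : C.c q * (C.c r)ᴴ = (if q = r then 1 else 0) - (C.c r)ᴴ * C.c q := eq_sub_of_add_eq (C.car q r)
  have h3 : (C.c p)ᴴ * (C.c r)ᴴ = - ((C.c r)ᴴ * (C.c p)ᴴ) := eq_neg_of_add_eq_zero_left (C.anti_star p r)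
  calc ((C.c p)ᴴ * C.c q) * (C.c r)ᴴ - (C.c r)ᴴ * ((C.c p)ᴴ * C.c q)
      = (C.c p)ᴴ * (C.c q * (C.c r)ᴴ) - (C.c r)ᴴ * (C.c p)ᴴ * C.c q := by noncomm_ring
    _ = (C.c p)ᴴ * (if q = r then 1 else 0) - ((C.c p)ᴴ * (C.c r)ᴴ) * C.c q - (C.c r)ᴴ * (C.c p)ᴴ * C.c q := by
        rw [h1]; noncomm_ring
    _ = (C.c p)ᴴ * (if q = r then 1 else 0) := by rw [h3]; noncomm_ring
    _ = _ := by split_ifs <;> simp

theorem rexc_dG_prod (X : Matrix Q Q ℂ) :
    C.dG X = ∑ a : Q × Q, X a.1 a.2 • ((C.c a.1)ᴴ * C.c a.2) := by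
  rw [Fintype.sum_prod_type]; rfl

theorem dG_cr (X : Matrix Q Q ℂ) (x : Q → ℂ) : C.dG X * C.cr x - C.cr x * C.dG X = C.cr (X.mulVec x) := by
  rw [rexc_dG_prod]
  unfold cr
  rw [rexc_mul_sum, rexc_mul_sum', ← Finset.sum_sub_distrib]
  simp only [← Finset.sum_sub_distrib, ← smul_sub, rexc_quad_cr, smul_ite, smul_zero,
    Finset.sum_ite_eq, Finset.mem_univ, if_true]
  rw [Fintype.sum_prod_type]
  refine Finset.sum_congr rfl fun p _ => ?_
  simp only [mulVec, dotProduct, Finset.sum_smul]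

theorem dG_bracket (X Y : Matrix Q Q ℂ) : C.dG (X * Y - Y * X) = C.dG X * C.dG Y - C.dG Y * C.dG X := by
  have e1 : C.dG X * C.dG Y - C.dG Y * C.dG X =
      ∑ a : Q × Q, ∑ b : Q × Q, (X a.1 a.2 * Y b.1 b.2) •
        ((if a.2 = b.1 then (C.c a.1)ᴴ * C.c b.2 else 0) - (if a.1 = b.2 then (C.c b.1)ᴴ * C.c a.2 else 0)) := by
    rw [rexc_dG_prod, rexc_dG_prod, rexc_mul_sum, rexc_mul_sum', ← Finset.sum_sub_distrib]
    simp only [← Finset.sum_sub_distrib, ← smul_sub, quad_comm]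
  rw [e1]
  simp only [smul_sub, Finset.sum_sub_distrib]
  have e2 : C.dG (X * Y - Y * X) = C.dG (X * Y) - C.dG (Y * X) := by
    rw [sub_eq_add_neg, dG_add, ← neg_one_smul ℂ (Y * X), dG_smul, neg_one_smul, ← sub_eq_add_neg]
  rw [e2]
  congr 1
  · simp only [Fintype.sum_prod_type]
    unfold dG
    refine Finset.sum_congr rfl fun p _ => ?_
    have : ∀ q : Q, ∑ r, ∑ s, (X p q * Y r s) • (if q = r then (C.c p)ᴴ * C.c s else 0)
        = ∑ s, (X p q * Y q s) • ((C.c p)ᴴ * C.c s) := by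
      intro q
      rw [Finset.sum_eq_single q]
      · simp
      · intro r _ hr
        simp [Ne.symm hr]
      · simp
    simp only [this]
    rw [Finset.sum_comm]
    simp only [Matrix.mul_apply, Finset.sum_smul]
  · simp only [Fintype.sum_prod_type]
    unfold dG
    rw [Finset.sum_comm]
    simp only [Matrix.mul_apply, Finset.sum_smul]
    simp only [smul_ite, smul_zero, Finset.sum_ite_eq, Finset.mem_univ, if_true]
    conv_rhs => rw [Finset.sum_comm]
    refine Finset.sum_congr rfl fun q _ => ?_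
    rw [Finset.sum_comm]
    simp only [mul_comm]

theorem dG_vac (X : Matrix Q Q ℂ) : (C.dG X).mulVec C.vac = 0 := by
  unfold dG
  rw [Matrix.sum_mulVec]
  refine Finset.sum_eq_zero fun p _ => ?_
  rw [Matrix.sum_mulVec]
  refine Finset.sum_eq_zero fun q _ => ?_
  rw [Matrix.smul_mulVec, ← Matrix.mulVec_mulVec, C.kill, Matrix.mulVec_zero, smul_zero]

end Quad

section Wedge

/-- `c⁺(x₁) ⋯ c⁺(x_k) vac` -/
noncomputable def wedge : List (Q → ℂ) → ι → ℂ
  | [] => C.vac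
  | x :: l => (C.cr x).mulVec (wedge l)

theorem wedge_dG (X : Matrix Q Q ℂ) (x : Q → ℂ) (l : List (Q → ℂ)) :
    (C.dG X).mulVec (C.wedge (x :: l)) =
      (C.cr (X.mulVec x)).mulVec (C.wedge l) + (C.cr x).mulVec ((C.dG X).mulVec (C.wedge l)) := by
  show (C.dG X).mulVec ((C.cr x).mulVec (C.wedge l)) = _
  rw [Matrix.mulVec_mulVec, Matrix.mulVec_mulVec, ← Matrix.add_mulVec, ← C.dG_cr]
  congr 1
  abel

theorem wedge_mem (x : Q → ℂ) (l : List (Q → ℂ)) (h : x ∈ l) : (C.cr x).mulVec (C.wedge l) = 0 := by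
  induction l with
  | nil => simp at h
  | cons y l ih =>
    show (C.cr x).mulVec ((C.cr y).mulVec (C.wedge l)) = 0
    rcases List.mem_cons.mp h with rfl | h
    · rw [Matrix.mulVec_mulVec, C.cr_sq, Matrix.zero_mulVec]
    · have e : C.cr x * C.cr y = - (C.cr y * C.cr x) := eq_neg_of_add_eq_zero_left (C.cr_anti x y)
      rw [Matrix.mulVec_mulVec, e, Matrix.neg_mulVec, ← Matrix.mulVec_mulVec, ih h,
        Matrix.mulVec_zero, neg_zero]

theorem wedge_an (x : Q → ℂ) (l : List (Q → ℂ)) (h : ∀ y ∈ l, x ⬝ᵥ y = 0) :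
    (C.an x).mulVec (C.wedge l) = 0 := by
  induction l with
  | nil => exact C.an_vac x
  | cons y l ih =>
    show (C.an x).mulVec ((C.cr y).mulVec (C.wedge l)) = 0
    have e : C.an x * C.cr y = (x ⬝ᵥ y) • (1 : Matrix ι ι ℂ) - C.cr y * C.an x :=
      eq_sub_of_add_eq (C.an_cr x y)
    rw [Matrix.mulVec_mulVec, e, h y (List.mem_cons_self), zero_smul, zero_sub, Matrix.neg_mulVec,
      ← Matrix.mulVec_mulVec, ih (fun y' hy' => h y' (List.mem_cons_of_mem _ hy')),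
      Matrix.mulVec_zero, neg_zero]

theorem wedge_cons_ne (x x' : Q → ℂ) (l : List (Q → ℂ)) (h1 : x' ⬝ᵥ x ≠ 0) (h2 : ∀ y ∈ l, x' ⬝ᵥ y = 0)
    (h : C.wedge l ≠ 0) : C.wedge (x :: l) ≠ 0 := by
  intro h0
  have h0' : (C.cr x).mulVec (C.wedge l) = 0 := h0
  have e : C.an x' * C.cr x = (x' ⬝ᵥ x) • (1 : Matrix ι ι ℂ) - C.cr x * C.an x' :=
    eq_sub_of_add_eq (C.an_cr x' x)
  have e2 : (C.an x' * C.cr x).mulVec (C.wedge l) = 0 := by
    rw [← Matrix.mulVec_mulVec, h0', Matrix.mulVec_zero]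
  rw [e, Matrix.sub_mulVec, ← Matrix.mulVec_mulVec, C.wedge_an x' l h2, Matrix.mulVec_zero, sub_zero,
    Matrix.smul_mulVec, Matrix.one_mulVec] at e2
  exact h ((smul_eq_zero.mp e2).resolve_left h1)

end Wedge

end Car

end Claimed.Agent.R282
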