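import Claimed.Agent.R282.Rep.R.Exist.Car
import Claimed.Agent.R282.Rep.R.Exist.Dec

/-!
# Row 282, Rep, BP-REP-EXIST, file 3: the exterior algebra of `ℂ^{2n}` and the weights `e_0 + .. + e_(k-1)`

Sub-architect: helper178.  Statements FROZEN; helper lemmas: prefix `rexl_`.  No paper.
`C : Car (Ix n) ι`, `ρ X = dΓ(X)` is a `*`-representation of ALL matrices.  `w_k = c⁺(u_(k-1)) ⋯ c⁺(u_0) vac`, `u_i = uvec i false`.

LEAVES: L-REX-L1 (section `UVec`: pure `2 × 2`-block computations), L-REX-L2 (section `HW`).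

ROUTES.
* `rex_Hc_uvec`, `rex_uvec_dot`: `ext ⟨a, b⟩` / `Fintype.sum_prod_type`, `Fin.sum_univ_two`, unfold `Hc JmatC Jmat uvec`, `Finset.sum_ite_eq`, `Complex.I_mul_I`; cases on `s`.
* `rex_rootVec_uvec`: `Matrix.sub_mulVec`, `Matrix.smul_mulVec`, `Matrix.vecMulVec_mulVec` (`(vecMulVec a b).mulVec x = (b ⬝ᵥ x) • a`, prove it by `ext` if the name differs), `rex_uvec_dot`.
* `rex_rootVec_uvec_pos`: from `rex_rootVec_uvec` and `rex_pos_iff` (file `Dec`).
* `rex_lam_wt`, `rex_lam_top`, `rex_lam_ne`: induction on `k` with `Car.wedge_dG`, `Car.dG_vac`, `Car.wedge_mem`, `Car.wedge_cons_ne` (test vector `uvec k true`), `Car.cr_smul`, `Car.cr_zero`.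
  `dot (rexOm n (k+1)) x = dot (rexOm n k) x + x k`.
* `rex_lam_isHW`: `isHW_iff`, `mem_wt`, `mem_prim`, `op_apply` (`R/Api`).
-/

set_option autoImplicit false

namespace Claimed.Agent.R282

open Claims.C0456 Matrix

variable {n : ℕ} {ι : Type} [Fintype ι] [DecidableEq ι]

section UVec

theorem rex_Hc_uvec (x : Vec n) (i : Fin n) (s : Bool) :
    (Hc x).mulVec (uvec i s) = ((sgnB s * x i : ℝ) : ℂ) • uvec i s := by
  ext ⟨a, b⟩
  simp only [mulVec, dotProduct, Fintype.sum_prod_type, Fin.sum_univ_two, Hc, JmatC, Jmat, uvec,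
    Matrix.smul_apply, Matrix.map_apply, Pi.smul_apply, smul_eq_mul]
  rw [Finset.sum_eq_single a]
  · by_cases h : a = i
    · subst h
      fin_cases b <;> cases s <;> simp [sgnB]
      all_goals first | ring1 | linear_combination (-(x a : ℂ)) * Complex.I_mul_I | linear_combination (x a : ℂ) * Complex.I_mul_I
    · simp [h]
  · intro c _ hc
    simp [Ne.symm hc]
  · simp

theorem rex_uvec_dot (i j : Fin n) (s t : Bool) :
    uvec i s ⬝ᵥ uvec j t = if i = j ∧ s ≠ t then 2 else 0 := by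
  simp only [dotProduct, Fintype.sum_prod_type, Fin.sum_univ_two, uvec]
  rw [Finset.sum_eq_single i]
  · by_cases h : i = j
    · subst h
      cases s <;> cases t <;> simp <;> norm_num
    · simp [h]
  · intro c _ hc
    simp [hc]
  · simp

theorem rexl_vecMulVec_mulVec {Q : Type} [Fintype Q] (a b x : Q → ℂ) :
    (vecMulVec a b).mulVec x = (b ⬝ᵥ x) • a := by
  ext p
  simp only [mulVec, dotProduct, vecMulVec_apply, Pi.smul_apply, smul_eq_mul, Finset.sum_mul]
  refine Finset.sum_congr rfl fun q _ => ?_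
  ring

theorem rex_rootVec_uvec (β : RootD n) (m : Fin n) (t : Bool) :
    (rootVec β).mulVec (uvec m t) =
      (if m = β.j ∧ t ≠ β.sj then uvec β.i β.si else 0) -
        (if m = β.i ∧ t ≠ β.si then uvec β.j β.sj else 0) := by
  unfold rootVec
  rw [Matrix.smul_mulVec, Matrix.sub_mulVec, rexl_vecMulVec_mulVec, rexl_vecMulVec_mulVec,
    rex_uvec_dot, rex_uvec_dot, smul_sub]
  congr 1
  · by_cases h : m = β.j ∧ t ≠ β.sj
    · have h' : β.j = m ∧ β.sj ≠ t := ⟨h.1.symm, h.2.symm⟩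
      rw [if_pos h, if_pos h', smul_smul]; norm_num
    · have h' : ¬ (β.j = m ∧ β.sj ≠ t) := fun h' => h ⟨h'.1.symm, h'.2.symm⟩
      rw [if_neg h, if_neg h']; simp
  · by_cases h : m = β.i ∧ t ≠ β.si
    · have h' : β.i = m ∧ β.si ≠ t := ⟨h.1.symm, h.2.symm⟩
      rw [if_pos h, if_pos h', smul_smul]; norm_num
    · have h' : ¬ (β.i = m ∧ β.si ≠ t) := fun h' => h ⟨h'.1.symm, h'.2.symm⟩
      rw [if_neg h, if_neg h']; simp

theorem rex_rootVec_uvec_pos (β : RootD n) (hβ : β.Pos) (m : Fin n) :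
    (rootVec β).mulVec (uvec m false) = 0 ∨
      ∃ (l : Fin n) (c : ℂ), l < m ∧ (rootVec β).mulVec (uvec m false) = c • uvec l false := by
  rw [rex_rootVec_uvec]
  rcases (rex_pos_iff β).mp hβ with ⟨h1, h2⟩ | ⟨h1, h2⟩
  · have e : ¬ (m = β.i ∧ false ≠ β.si) := by rw [h2]; simp
    rw [if_neg e, sub_zero]
    by_cases h : m = β.j ∧ false ≠ β.sj
    · right
      refine ⟨β.i, 1, by rw [h.1]; exact h1, ?_⟩
      rw [if_pos h, h2, one_smul]
    · left; rw [if_neg h]
  · have e : ¬ (m = β.j ∧ false ≠ β.sj) := by rw [h2]; simp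
    rw [if_neg e, zero_sub]
    by_cases h : m = β.i ∧ false ≠ β.si
    · right
      refine ⟨β.j, -1, by rw [h.1]; exact h1, ?_⟩
      rw [if_pos h, h2, neg_one_smul]
    · left; rw [if_neg h, neg_zero]

end UVec

/-- the exterior algebra as a `*`-representation -/
noncomputable def Car.lamRep (C : Car (Ix n) ι) : StarRep Ty.D n ι where
  ρ := { toFun := C.dG, map_add' := C.dG_add, map_smul' := C.dG_smul }
  bracket := fun X Y _ _ => C.dG_bracket X Y
  star := fun X _ => (C.dG_conjTranspose X).symm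

/-- `[u_(k-1), ..., u_0]` -/
noncomputable def rexU (n : ℕ) : ℕ → List (Ix n → ℂ)
  | 0 => []
  | k + 1 => (if h : k < n then uvec ⟨k, h⟩ false else 0) :: rexU n k

section HW

variable (C : Car (Ix n) ι)

theorem rex_mem_rexU (k : ℕ) (l : Fin n) (h : (l : ℕ) < k) : uvec l false ∈ rexU n k := by
  induction k with
  | zero => omega
  | succ k ih =>
    show uvec l false ∈ (if h : k < n then uvec ⟨k, h⟩ false else 0) :: rexU n k
    rcases Nat.lt_succ_iff_lt_or_eq.mp h with h' | h'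
    · exact List.mem_cons_of_mem _ (ih h')
    · have hk : k < n := h' ▸ l.isLt
      rw [dif_pos hk]
      have : l = ⟨k, hk⟩ := Fin.ext h'
      rw [this]; exact List.mem_cons_self

theorem rexl_rexU_succ (k : ℕ) (hk : k < n) : rexU n (k + 1) = uvec ⟨k, hk⟩ false :: rexU n k := by
  show (if h : k < n then uvec ⟨k, h⟩ false else 0) :: rexU n k = _
  rw [dif_pos hk]

theorem rex_of_mem_rexU (k : ℕ) (hk : k ≤ n) (y : Ix n → ℂ) (h : y ∈ rexU n k) :
    ∃ l : Fin n, (l : ℕ) < k ∧ y = uvec l false := by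
  induction k with
  | zero => simp [rexU] at h
  | succ k ih =>
    have hk' : k < n := hk
    rw [rexl_rexU_succ k hk'] at h
    rcases List.mem_cons.mp h with rfl | h''
    · exact ⟨⟨k, hk'⟩, by simp, rfl⟩
    · obtain ⟨l, hl, e⟩ := ih (by omega) h''
      exact ⟨l, by omega, e⟩

theorem rexl_dot_succ (k : ℕ) (hk : k < n) (x : Vec n) :
    dot (rexOm n (k + 1)) x = x ⟨k, hk⟩ + dot (rexOm n k) x := by
  have e : ∀ i : Fin n, rexOm n (k + 1) i * x i =
      (if i = ⟨k, hk⟩ then x i else 0) + rexOm n k i * x i := by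
    intro i
    unfold rexOm
    rcases lt_trichotomy (i : ℕ) k with h | h | h
    · have h1 : (i : ℕ) < k + 1 := by omega
      have h2 : i ≠ ⟨k, hk⟩ := fun e => by rw [e] at h; simp at h
      simp [h, h1, h2]
    · have h1 : (i : ℕ) < k + 1 := by omega
      have h2 : i = ⟨k, hk⟩ := Fin.ext h
      have h3 : ¬ (i : ℕ) < k := by omega
      simp [h1, h2]
    · have h1 : ¬ (i : ℕ) < k + 1 := by omega
      have h2 : i ≠ ⟨k, hk⟩ := fun e => by rw [e] at h; simp at h
      have h3 : ¬ (i : ℕ) < k := by omega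
      simp [h1, h2, h3]
  unfold dot
  simp only [e, Finset.sum_add_distrib, Finset.sum_ite_eq', Finset.mem_univ, if_true]

theorem rex_lam_wt (k : ℕ) (hk : k ≤ n) (x : Vec n) :
    (C.dG (Hc x)).mulVec (C.wedge (rexU n k)) = ((dot (rexOm n k) x : ℝ) : ℂ) • C.wedge (rexU n k) := by
  induction k with
  | zero =>
    have : dot (rexOm n 0) x = 0 := by simp [dot, rexOm]
    rw [this]
    show (C.dG (Hc x)).mulVec C.vac = _
    rw [C.dG_vac]; simp
  | succ k ih =>
    have hk' : k < n := hk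
    rw [rexl_rexU_succ k hk', C.wedge_dG, ih (by omega), rex_Hc_uvec, C.cr_smul, Matrix.smul_mulVec,
      Matrix.mulVec_smul, rexl_dot_succ k hk']
    show _ • C.wedge (uvec ⟨k, hk'⟩ false :: rexU n k) + _ • C.wedge (uvec ⟨k, hk'⟩ false :: rexU n k) = _
    rw [← add_smul]
    congr 1
    simp [sgnB]

theorem rex_lam_top (k : ℕ) (hk : k ≤ n) (β : RootD n) (hβ : β.Pos) :
    (C.dG (rootVec β)).mulVec (C.wedge (rexU n k)) = 0 := by
  induction k with
  | zero => exact C.dG_vac _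
  | succ k ih =>
    have hk' : k < n := hk
    rw [rexl_rexU_succ k hk', C.wedge_dG, ih (by omega), Matrix.mulVec_zero, add_zero]
    rcases rex_rootVec_uvec_pos β hβ ⟨k, hk'⟩ with h | ⟨l, c, hl, h⟩
    · rw [h, C.cr_zero, Matrix.zero_mulVec]
    · rw [h, C.cr_smul, Matrix.smul_mulVec, C.wedge_mem _ _ (rex_mem_rexU k l hl), smul_zero]

theorem rex_lam_ne (k : ℕ) (hk : k ≤ n) : C.wedge (rexU n k) ≠ 0 := by
  induction k with
  | zero => exact C.vac_ne
  | succ k ih =>
    have hk' : k < n := hk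
    rw [rexl_rexU_succ k hk']
    refine C.wedge_cons_ne _ (uvec ⟨k, hk'⟩ true) _ ?_ ?_ (ih (by omega))
    · rw [rex_uvec_dot]; simp
    · intro y hy
      obtain ⟨l, hl, rfl⟩ := rex_of_mem_rexU k (by omega) y hy
      rw [rex_uvec_dot, if_neg]
      rintro ⟨e, -⟩
      rw [← e] at hl
      simp at hl

theorem rex_lam_isHW (k : ℕ) (hk : k ≤ n) : IsHW C.lamRep (C.wedge (rexU n k)) (rexOm n k) := by
  rw [isHW_iff]
  refine ⟨rex_lam_ne C k hk, ?_, ?_⟩
  · rw [mem_wt]
    intro x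
    exact rex_lam_wt C k hk x
  · rw [mem_prim]
    intro β hβ
    exact rex_lam_top C k hk β hβ

end HW

end Claimed.Agent.R282
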